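import Vale.Agent.P181.TL.DefsP
import Mathlib.Data.Fintype.BigOperators
import Mathlib.Algebra.BigOperators.Fin
import Mathlib.Algebra.Order.BigOperators.Group.Finset
import Mathlib.Data.Fintype.Prod
import Mathlib.Tactic.Linarith
import Mathlib.Tactic.Ring

namespace Vale.Agent.P181.TL.H307

open Finset

/-- **(T5a+)** helper908's proof of `KeyB`, with the sharper bound of the contents. -/
theorem keyP : Vale.Agent.P181.TL.KeyP := by
  show ∀ (a q m X t : ℕ), 0 < a → 2 ≤ q → 1 ≤ m → 1 ≤ X → 2 * m * q * X ≤ t / a / q →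
  ∃ KS : Finset (Fin a × Fin q → ℕ),
    (∀ c ∈ KS, ∀ i : Fin a, ∑ r, c (i, r) = t / a + if (i : ℕ) < t % a then 1 else 0) ∧
    (∀ c ∈ KS, ∀ j, c j ≤ t / a / q + q + 2 * m * q * X) ∧
    (∀ c ∈ KS, ∀ c' ∈ KS, ∀ j j' : Fin a × Fin q, (j.1 : ℕ) / m = (j'.1 : ℕ) / m → j.2 = j'.2 →
      j ≠ j' → c j ≠ c' j') ∧
    X ^ ((q - 1) * a) ≤ KS.card
  intro a q m X t ha hq hm hX hA
  obtain ⟨n, rfl⟩ : ∃ n, q = n + 1 := ⟨q - 1, by omega⟩
  have hn : 1 ≤ n := by omega
  obtain ⟨B, hBd⟩ : ∃ B, B = t / a := ⟨_, rfl⟩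
  obtain ⟨A, hAd⟩ : ∃ A, A = B / (n + 1) := ⟨_, rfl⟩
  rw [← hBd, ← hAd] at hA ⊢
  have hB1 : (n + 1) * A ≤ B := by
    rw [hAd]
    exact Nat.mul_div_le B (n + 1)
  have hB2 : B < (n + 1) * (A + 1) := by
    rw [hAd]
    exact Nat.lt_mul_div_succ B (Nat.succ_pos n)
  obtain ⟨e, he, he1⟩ : ∃ e : Fin a → ℕ, (∀ i, e i = if (i : ℕ) < t % a then 1 else 0) ∧
      ∀ i, e i ≤ 1 :=
    ⟨fun i => if (i : ℕ) < t % a then 1 else 0, fun _ => rfl, fun i => by
      dsimp only
      split_ifs <;> omega⟩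
  simp only [← he]
  -- the values
  have hp : ∀ i : Fin a, 2 * X * ((i : ℕ) % m) + 2 * X ≤ 2 * X * m := fun i => by
    have h1 : (i : ℕ) % m + 1 ≤ m := Nat.mod_lt _ hm
    calc 2 * X * ((i : ℕ) % m) + 2 * X = 2 * X * ((i : ℕ) % m + 1) := by ring
      _ ≤ 2 * X * m := Nat.mul_le_mul_left _ h1
  have hA1 : 2 * X * m * (n + 1) ≤ A := by
    calc 2 * X * m * (n + 1) = 2 * m * (n + 1) * X := by ring
      _ ≤ A := hA
  have hA2 : 2 * X * m ≤ A := by
    refine le_trans ?_ hA1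
    exact Nat.le_mul_of_pos_right _ (Nat.succ_pos n)
  let g : (Fin a × Fin n → Fin X) → Fin a → Fin n → ℕ :=
    fun δ i r => A - 2 * X * ((i : ℕ) % m) - (δ (i, r) : ℕ)
  have hg : ∀ δ i r, g δ i r + 2 * X * ((i : ℕ) % m) + (δ (i, r) : ℕ) = A := fun δ i r => by
    have h1 := hp i
    have h2 := (δ (i, r)).2
    show A - 2 * X * ((i : ℕ) % m) - (δ (i, r) : ℕ) + 2 * X * ((i : ℕ) % m) + (δ (i, r) : ℕ) = A
    omega
  have hgs : ∀ δ i, ∑ r, g δ i r + n * (2 * X * ((i : ℕ) % m)) + ∑ r, (δ (i, r) : ℕ) = n * A :=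
    fun δ i => by
      have h1 : ∑ r, (g δ i r + 2 * X * ((i : ℕ) % m) + (δ (i, r) : ℕ)) = ∑ _r : Fin n, A :=
        sum_congr rfl fun r _ => hg δ i r
      rw [sum_add_distrib, sum_add_distrib, sum_const, sum_const, card_univ, Fintype.card_fin,
        smul_eq_mul, smul_eq_mul] at h1
      exact h1
  have hds : ∀ (δ : Fin a × Fin n → Fin X) (i : Fin a), ∑ r, (δ (i, r) : ℕ) + n ≤ n * X :=
    fun δ i => by
      have h1 : ∑ r : Fin n, ((δ (i, r) : ℕ) + 1) ≤ ∑ _r : Fin n, X :=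
        sum_le_sum fun r _ => (δ (i, r)).2
      rw [sum_add_distrib, sum_const, sum_const, card_univ, Fintype.card_fin,
        smul_eq_mul, smul_eq_mul, mul_one] at h1
      exact h1
  let L : (Fin a × Fin n → Fin X) → Fin a → ℕ := fun δ i => B + e i - ∑ r, g δ i r
  have hL : ∀ δ i, L δ i + ∑ r, g δ i r = B + e i := fun δ i => by
    have h1 := hgs δ i
    have h2 : n * A ≤ B := by nlinarith
    show B + e i - ∑ r, g δ i r + ∑ r, g δ i r = B + e i
    omega
  have hL' : ∀ δ i, L δ i + n * A = B + e i + n * (2 * X * ((i : ℕ) % m)) +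
      ∑ r, (δ (i, r) : ℕ) := fun δ i => by
    have h1 := hgs δ i
    have h2 := hL δ i
    omega
  let c : (Fin a × Fin n → Fin X) → (Fin a × Fin (n + 1) → ℕ) :=
    fun δ j => Fin.lastCases (motive := fun _ => ℕ) (L δ j.1) (fun r => g δ j.1 r) j.2
  have hc1 : ∀ δ i r, c δ (i, Fin.castSucc r) = g δ i r := fun δ i r => Fin.lastCases_castSucc _
  have hc2 : ∀ δ i, c δ (i, Fin.last n) = L δ i := fun δ i => Fin.lastCases_last
  have hinj : Function.Injective c := fun δ δ' h => by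
    funext x
    obtain ⟨i, r⟩ := x
    have h1 := congrFun h (i, Fin.castSucc r)
    rw [hc1, hc1] at h1
    have h2 := hg δ i r
    have h3 := hg δ' i r
    exact Fin.ext (by omega)
  classical
  refine ⟨univ.image c, ?_, ?_, ?_, ?_⟩
  · intro x hx i
    obtain ⟨δ, _, rfl⟩ := mem_image.1 hx
    rw [Fin.sum_univ_castSucc]
    simp only [hc1, hc2]
    have := hL δ i
    omega
  · intro x hx j
    obtain ⟨δ, _, rfl⟩ := mem_image.1 hx
    obtain ⟨i, r⟩ := j
    refine Fin.lastCases ?_ (fun r => ?_) r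
    · rw [hc2]
      have h1 := hL' δ i
      have h2 := hds δ i
      have h3 := he1 i
      have h4 : n * (2 * X * ((i : ℕ) % m)) + n * X ≤ 2 * m * (n + 1) * X := by
        have h5 : n * (2 * X * ((i : ℕ) % m)) + n * (2 * X) ≤ n * (2 * X * m) := by
          rw [← mul_add]
          exact Nat.mul_le_mul_left _ (hp i)
        have h6 : n * (2 * X * m) ≤ 2 * m * (n + 1) * X := by nlinarith
        have h7 : n * X ≤ n * (2 * X) := by nlinarith
        omega
      have h8 : (n + 1) * (A + 1) = n * A + A + n + 1 := by ring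
      omega
    · rw [hc1]
      have := hg δ i r
      have h9 : 0 ≤ 2 * m * (n + 1) * X := Nat.zero_le _
      omega
  · intro x hx x' hx' j j' h1 h2 h3
    obtain ⟨δ, _, rfl⟩ := mem_image.1 hx
    obtain ⟨δ', _, rfl⟩ := mem_image.1 hx'
    obtain ⟨i, r⟩ := j
    obtain ⟨i', r'⟩ := j'
    dsimp only at h1 h2
    subst h2
    have hne : (i : ℕ) ≠ i' := fun h => h3 (by rw [Fin.ext h])
    have hpp : (i : ℕ) % m ≠ (i' : ℕ) % m := fun h => hne (by
      rw [← Nat.div_add_mod (i : ℕ) m, ← Nat.div_add_mod (i' : ℕ) m, h1, h])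
    -- key inequality, symmetric
    have key : ∀ (δ δ' : Fin a × Fin n → Fin X) (i i' : Fin a), (i : ℕ) % m < (i' : ℕ) % m →
        ∀ r, c δ (i, r) ≠ c δ' (i', r) := by
      intro δ δ' i i' hlt r
      have h4 : 2 * X * ((i : ℕ) % m) + 2 * X ≤ 2 * X * ((i' : ℕ) % m) := by
        calc 2 * X * ((i : ℕ) % m) + 2 * X = 2 * X * ((i : ℕ) % m + 1) := by ring
          _ ≤ 2 * X * ((i' : ℕ) % m) := Nat.mul_le_mul_left _ hlt
      refine Fin.lastCases ?_ (fun r => ?_) r
      · rw [hc2, hc2]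
        intro h5
        have h6 := hL' δ i
        have h7 := hL' δ' i'
        have h8 := hds δ i
        have h9 := he1 i
        have h10 : n * (2 * X * ((i : ℕ) % m)) + n * (2 * X) ≤ n * (2 * X * ((i' : ℕ) % m)) := by
          rw [← mul_add]
          exact Nat.mul_le_mul_left _ h4
        have h11 : n * (2 * X) = n * X + n * X := by ring
        have h12 : 1 ≤ n * X := Nat.mul_pos hn hX
        omega
      · rw [hc1, hc1]
        intro h5
        have h6 := hg δ i r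
        have h7 := hg δ' i' r
        have h8 := (δ (i, r)).2
        omega
    rcases lt_or_gt_of_ne hpp with h | h
    · exact key δ δ' i i' h r
    · exact (key δ' δ i' i h r).symm
  · rw [card_image_of_injective _ hinj, card_univ, Fintype.card_fun, Fintype.card_prod,
      Fintype.card_fin, Fintype.card_fin, Fintype.card_fin, Nat.add_sub_cancel, mul_comm n a]

end Vale.Agent.P181.TL.H307
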