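import Vale.Agent.P181.TL.DefsP

set_option autoImplicit false

/-! # P181, line TL+, block T5b+ (`SizeP`): the sizes and the heads -/

namespace Vale.Agent.P181.TL.H307

/-- balanced parts -/
theorem sum_balP (H P : ℕ) (hH : 0 < H) :
    ∑ h : Fin H, (P / H + if (h : ℕ) < P % H then 1 else 0) = P := by
  rw [Finset.sum_add_distrib]
  have h1 : ∑ _h : Fin H, P / H = H * (P / H) := by simp
  have h2 : (∑ h : Fin H, if (h : ℕ) < P % H then 1 else 0) = P % H := by
    rw [Fin.sum_univ_eq_sum_range (fun i => if i < P % H then 1 else 0) H,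
      Finset.sum_ite, Finset.sum_const_zero, add_zero, Finset.sum_const, smul_eq_mul, mul_one]
    have : (Finset.range H).filter (fun i => i < P % H) = Finset.range (P % H) := by
      ext i
      simp only [Finset.mem_filter, Finset.mem_range]
      exact ⟨fun h => h.2, fun h => ⟨h.trans (Nat.mod_lt _ hH), h⟩⟩
    rw [this, Finset.card_range]
  rw [h1, h2]
  exact Nat.div_add_mod P H

theorem exists_le_sum {ι : Type} [Fintype ι] (p : ι → ℕ) (R : ℕ) (h : R ≤ ∑ i, p i) :
    ∃ r : ι → ℕ, (∀ i, r i ≤ p i) ∧ ∑ i, r i = R := by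
  classical
  induction R with
  | zero => exact ⟨fun _ => 0, fun _ => Nat.zero_le _, by simp⟩
  | succ n ih =>
    obtain ⟨r, hr, hs⟩ := ih (by omega)
    obtain ⟨i, hi⟩ : ∃ i, r i < p i := by
      by_contra hc
      push Not at hc
      have : ∑ i, p i ≤ ∑ i, r i := Finset.sum_le_sum fun i _ => hc i
      omega
    refine ⟨fun j => r j + if j = i then 1 else 0, fun j => ?_, ?_⟩
    · by_cases hj : j = i
      · subst hj
        simpa using hi
      · simpa [hj] using hr j
    · rw [Finset.sum_add_distrib, hs]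
      simp

theorem size (a b q m w M R : ℕ) (ha : 0 < a) (hq : 1 ≤ q) (hM : 1 ≤ M)
    (h1 : 2 * (M + q * (a / m) + q + 1) ≤ a)
    (h2 : q * a * (M + q * (a / m) + q) + R + 2 * a ≤ w)
    (h3 : 3 * q * a + 3 * (w / a) + 3 ≤ b) :
    ∃ (H : ℕ) (s : Fin a × Fin q → ℕ) (p r : Fin H → ℕ), 0 < H ∧
    (∀ j, M < s j) ∧ (∀ j h, s j < p h) ∧ (∀ h, p h ≤ a) ∧ (∀ h, r h ≤ p h) ∧ ∑ h, r h = R ∧
    3 * (a * q + H) ≤ b ∧ ∑ j, s j + ∑ h, p h = w ∧
    ∀ j j' : Fin a × Fin q, s j = s j' → (j.1 : ℕ) / m = (j'.1 : ℕ) / m ∧ j.2 = j'.2 := by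
  set U := M + q * (a / m) + q with hU
  set s : Fin a × Fin q → ℕ := fun j => M + 1 + q * ((j.1 : ℕ) / m) + (j.2 : ℕ) with hs
  have sle : ∀ j, s j ≤ U := by
    rintro ⟨i, r⟩
    have hi : (i : ℕ) / m ≤ a / m := Nat.div_le_div_right i.2.le
    have := Nat.mul_le_mul_left q hi
    have := r.2
    simp only [hs, hU]
    omega
  have hS : ∑ j, s j ≤ q * a * U := by
    refine (Finset.sum_le_card_nsmul _ _ U fun j _ => sle j).trans ?_
    simp [Fintype.card_prod, mul_comm q a]
  set S := ∑ j, s j with hSd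
  set P := w - S with hP
  have hPS : S + P = w := by omega
  have hP4 : R + 2 * a ≤ P := by omega
  set H := P / a + 1 with hH
  have hH0 : 0 < H := Nat.succ_pos _
  have hPa : 2 ≤ P / a := by
    rw [Nat.le_div_iff_mul_le ha]; omega
  have hH2 : 2 ≤ H := by omega
  have hPlt : P < a * H := by
    have := Nat.lt_mul_div_succ P ha
    simpa [hH] using this
  have hPge : a * (H - 1) ≤ P := by
    have := Nat.mul_div_le P a
    simpa [hH] using this
  -- any x with 2 x ≤ a satisfies x ≤ P / H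
  have key : ∀ x, 2 * x ≤ a → x ≤ P / H := by
    intro x hx
    rw [Nat.le_div_iff_mul_le hH0]
    calc x * H ≤ x * (2 * (H - 1)) := Nat.mul_le_mul_left _ (by omega)
      _ = 2 * x * (H - 1) := by ring
      _ ≤ a * (H - 1) := Nat.mul_le_mul_right _ hx
      _ ≤ P := hPge
  obtain ⟨r, hr1, hr2⟩ := exists_le_sum
    (fun h : Fin H => P / H + if (h : ℕ) < P % H then 1 else 0) R
    (by rw [sum_balP H P hH0]; omega)
  refine ⟨H, s, fun h => P / H + if (h : ℕ) < P % H then 1 else 0, r, hH0, ?_, ?_, ?_, hr1, hr2,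
    ?_, ?_, ?_⟩
  · rintro ⟨i, r⟩
    simp only [hs]
    omega
  · intro j h
    have := sle j
    have := key (U + 1) h1
    show s j < P / H + _
    omega
  · intro h
    have : P / H < a := by
      rw [Nat.div_lt_iff_lt_mul hH0]; exact hPlt
    show P / H + _ ≤ a
    split_ifs <;> omega
  · have : P / a ≤ w / a := Nat.div_le_div_right (by omega)
    have e : 3 * (a * q + H) = 3 * q * a + 3 * (P / a) + 3 := by rw [hH]; ring
    rw [e]
    omega
  · rw [sum_balP H P hH0]
    exact hPS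
  · rintro ⟨i, r⟩ ⟨i', r'⟩ h
    simp only [hs] at h
    have hr := r.2
    have hr' := r'.2
    have h' : q * ((i : ℕ) / m) + (r : ℕ) = q * ((i' : ℕ) / m) + (r' : ℕ) := by omega
    have hq0 : 0 < q := hq
    have e1 : (q * ((i : ℕ) / m) + (r : ℕ)) / q = (i : ℕ) / m := by
      rw [Nat.mul_add_div hq0, Nat.div_eq_of_lt hr, add_zero]
    have e2 : (q * ((i' : ℕ) / m) + (r' : ℕ)) / q = (i' : ℕ) / m := by
      rw [Nat.mul_add_div hq0, Nat.div_eq_of_lt hr', add_zero]
    have e : (i : ℕ) / m = (i' : ℕ) / m := by rw [← e1, ← e2, h']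
    refine ⟨e, Fin.ext ?_⟩
    rw [e] at h'
    show (r : ℕ) = r'
    omega

/-- **(T5b+)** -/
theorem sizeP : SizeP := fun a b q m w M R ha hq _ hM h1 h2 h3 => by
  obtain ⟨H, s, p, r, _, h⟩ := size a b q m w M R ha hq hM h1 h2 h3
  exact ⟨H, s, p, r, h⟩

end Vale.Agent.P181.TL.H307
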