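import Vale.Agent.P181.TL.H307.LowB
import Vale.Agent.P181.TL.H307.SizeP

set_option autoImplicit false

/-!
# P181, TL+, T6+: the lower bound from the blocks, arbitrary tail
-/

open MvPolynomial

namespace Vale.Agent.P181.TL.H307

open Vale.Agent.P181.T4 (HW)
open Vale.Agent.P181.H280 (plethMult)
open Vale.Agent.P181.SZ
open Vale.Agent.P181.TL

theorem lowP (hRef : RefB) (hLift : LiftC) (hKey : KeyP) (hLow : LowerS) (hTr : TransS) :
    LowP := by
  intro a b k q m X lam f hsum ha hq hm hX h1 hf h2 h3 h4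
  classical
  obtain ⟨KS, k1, k2, k3, k4⟩ := hKey a q m X (∑ i : Fin (k + 1), lam i.succ.succ) ha hq hm hX h1
  obtain ⟨H, s, p, r, hH, s1, s2, s3, s4, s5, s6, s7, s8⟩ := size a b q m (∑ i, tl lam i)
    ((∑ i : Fin (k + 1), lam i.succ.succ) / a / q + q + 2 * m * q * X) (lam 2) ha (by omega)
    (by omega) h2 h3 h4
  have h0 : Fin H := ⟨0, hH⟩
  have j0 : Fin a × Fin q := (⟨0, ha⟩, ⟨0, by omega⟩)
  have hLif := hLift k (lam 1) (Fin a × Fin q) (Fin H) s p r (fun i => lam i.succ.succ) KS s2 s4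
    s5
    (fun c hc j => (k2 c hc j).trans (s1 j).le)
    (fun c hc => by
      rw [Fintype.sum_prod_type]
      calc ∑ i : Fin a, ∑ r : Fin q, c (i, r)
          = ∑ i : Fin a, ((∑ i : Fin (k + 1), lam i.succ.succ) / a +
            if (i : ℕ) < (∑ i : Fin (k + 1), lam i.succ.succ) % a then 1 else 0) :=
            Finset.sum_congr rfl fun i _ => k1 c hc i
        _ = _ := sum_bal a _ ha)
    (fun c hc c' hc' j j' hs hne => by
      obtain ⟨e1, e2⟩ := s8 j j' hs
      exact k3 c hc c' hc' j j' e1 e2 hne)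
    (by rw [s7, sum_tl])
  have hstep : X ^ ((q - 1) * a) *
      Module.finrank ℂ (KK (k + 1) (Fin a) f fun i => lam i.succ.succ) ≤
      Module.finrank ℂ (PK (k + 2) ((Fin a × Fin q) ⊕ Fin H) (Sum.elim s p)
        (Fin.cons (lam 1) fun i => lam i.succ.succ)) := by
    refine le_trans (Nat.mul_le_mul_right _ k4) (le_trans ?_ hLif)
    rw [← smul_eq_mul, ← Finset.sum_const]
    refine Finset.sum_le_sum fun c hc => hRef (k + 1) (Fin a) (Fin q) f c _ fun i => ?_
    rw [k1 c hc i, hf i]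
  refine le_trans hstep ?_
  rw [hTr, tl_eq]
  have hpos : ∀ x : (Fin a × Fin q) ⊕ Fin H, 2 ≤ Sum.elim s p x ∧ Sum.elim s p x ≤ a := by
    have hs : ∀ j, 2 ≤ s j ∧ s j ≤ a := fun j =>
      ⟨by have := s1 j; omega, by have := s2 j h0; have := s3 h0; omega⟩
    rintro (j | h)
    · exact hs j
    · exact ⟨by have := s2 j0 h; have := (hs j0).1; simp only [Sum.elim_inr]; omega, s3 h⟩
  have hfil : ((Finset.univ.val.map (Sum.elim s p)).filter (0 < ·)) =
      Finset.univ.val.map (Sum.elim s p) := by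
    refine Multiset.filter_eq_self.2 fun x hx => ?_
    obtain ⟨y, _, rfl⟩ := Multiset.mem_map.1 hx
    exact lt_of_lt_of_le (by norm_num) (hpos y).1
  rw [hfil]
  refine le_trans ?_ (hLow a b (k + 1 + 1) lam hsum)
  refine Finset.single_le_sum (f := fun κ => nn (k + 1 + 1) (tl lam) κ)
    (fun _ _ => Nat.zero_le _) (Finset.mem_filter.2 ⟨mem_PT ?_ ?_, ?_, ?_⟩)
  · rw [← s7]
    change ∑ x, Sum.elim s p x = _
    rw [Fintype.sum_sum_type]
    rfl
  · intro x hx
    obtain ⟨y, _, rfl⟩ := Multiset.mem_map.1 hx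
    exact (hpos y).1
  · intro x hx
    obtain ⟨y, _, rfl⟩ := Multiset.mem_map.1 hx
    exact (hpos y).2
  · rw [Multiset.card_map]
    change 3 * Finset.card Finset.univ ≤ b
    rw [Finset.card_univ, Fintype.card_sum, Fintype.card_prod, Fintype.card_fin, Fintype.card_fin,
      Fintype.card_fin]
    exact s6

end Vale.Agent.P181.TL.H307
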