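import Vale.Agent.P181.TL.Defs

set_option autoImplicit false

/-!
# P181, TL, T6: the lower bound from the blocks
-/

open MvPolynomial

namespace Vale.Agent.P181.TL.H307

open Vale.Agent.P181.T4 (HW)
open Vale.Agent.P181.H280 (plethMult)
open Vale.Agent.P181.SZ
open Vale.Agent.P181.TL

theorem sum_bal (a t : ℕ) (ha : 0 < a) :
    ∑ i : Fin a, (t / a + if (i : ℕ) < t % a then 1 else 0) = t := by
  rw [Finset.sum_add_distrib, Finset.sum_const, Finset.card_univ, Fintype.card_fin, smul_eq_mul]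
  have h : ∑ i : Fin a, (if (i : ℕ) < t % a then 1 else 0) = t % a := by
    rw [Fin.sum_univ_eq_sum_range (fun i => if i < t % a then 1 else 0) a, ← Finset.card_filter]
    have : (Finset.range a).filter (fun i => i < t % a) = Finset.range (t % a) := by
      ext i
      simp only [Finset.mem_filter, Finset.mem_range]
      exact ⟨fun h => h.2, fun h => ⟨h.trans (Nat.mod_lt _ ha), h⟩⟩
    rw [this, Finset.card_range]
  rw [h]
  exact Nat.div_add_mod t a

theorem tl_eq {k : ℕ} (lam : Fin (k + 2) → ℕ) :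
    (Fin.cons (lam 1) (fun i : Fin k => lam i.succ.succ) : Fin (k + 1) → ℕ) = tl lam := by
  funext i
  refine Fin.cases ?_ (fun j => ?_) i
  · rfl
  · rfl

theorem sum_tl {k : ℕ} (lam : Fin (k + 2) → ℕ) :
    ∑ i, tl lam i = lam 1 + ∑ i : Fin k, lam i.succ.succ := by
  rw [Fin.sum_univ_succ]
  rfl

theorem mem_PT {w : ℕ} {κ : Multiset ℕ} (hs : κ.sum = w) (h2 : ∀ x ∈ κ, 2 ≤ x) : κ ∈ PT w := by
  unfold PT
  refine Finset.mem_filter.2 ⟨Finset.mem_image.2 ⟨⟨κ, fun {i} hi => ?_, hs⟩, Finset.mem_univ _, rfl⟩,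
    h2⟩
  exact lt_of_lt_of_le (by norm_num) (h2 i hi)

theorem lowB (hRef : RefB) (hLift : LiftB) (hKey : KeyB) (hSize : SizeB) (hLow : LowerS)
    (hTr : TransS) : LowB := by
  intro a b k q m X lam f hsum ha hq hm hX h1 hf h2 h3 h4
  classical
  obtain ⟨KS, k1, k2, k3, k4⟩ := hKey a q m X (∑ i : Fin k, lam i.succ.succ) ha hq hm hX h1
  obtain ⟨H, s, p, l, s1, s2, s3, s4, s5, s6, s7⟩ := hSize a b q m (∑ i, tl lam i)
    (2 * ((∑ i : Fin k, lam i.succ.succ) / a / q) + q) ha (by omega) hm (by omega) h2 h3 h4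
  have j0 : Fin a × Fin q := (⟨0, ha⟩, ⟨0, by omega⟩)
  have hLif := hLift k (lam 1) (Fin a × Fin q) (Fin H) s p l (fun i => lam i.succ.succ) KS s2
    (fun c hc j => (k2 c hc j).trans (s1 j).le)
    (fun c hc => by
      rw [Fintype.sum_prod_type]
      calc ∑ i : Fin a, ∑ r : Fin q, c (i, r)
          = ∑ i : Fin a, ((∑ i : Fin k, lam i.succ.succ) / a +
            if (i : ℕ) < (∑ i : Fin k, lam i.succ.succ) % a then 1 else 0) :=
            Finset.sum_congr rfl fun i _ => k1 c hc i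
        _ = _ := sum_bal a _ ha)
    (fun c hc h => by
      refine le_trans ?_ (s7 h)
      calc _ ≤ ∑ j ∈ Finset.univ.filter (fun j => l j = h),
              (2 * ((∑ i : Fin k, lam i.succ.succ) / a / q) + q) := by
            refine le_trans (le_of_eq ?_) (Finset.sum_le_sum fun j _ => k2 c hc j)
            refine Finset.sum_congr ?_ fun _ _ => rfl
            ext j; simp
        _ = _ := by rw [Finset.sum_const, smul_eq_mul])
    (fun c hc c' hc' j j' hs hne => by
      obtain ⟨e1, e2⟩ := s6 j j' hs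
      exact k3 c hc c' hc' j j' e1 e2 hne)
    (by rw [s5, sum_tl])
  have hstep : X ^ ((q - 1) * a) *
      Module.finrank ℂ (KK k (Fin a) f fun i => lam i.succ.succ) ≤
      Module.finrank ℂ (PK (k + 1) ((Fin a × Fin q) ⊕ Fin H) (Sum.elim s p)
        (Fin.cons (lam 1) fun i => lam i.succ.succ)) := by
    refine le_trans (Nat.mul_le_mul_right _ k4) (le_trans ?_ hLif)
    rw [← smul_eq_mul, ← Finset.sum_const]
    refine Finset.sum_le_sum fun c hc => hRef k (Fin a) (Fin q) f c _ fun i => ?_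
    rw [k1 c hc i, hf i]
  refine le_trans hstep ?_
  rw [hTr, tl_eq]
  have hpos : ∀ x : (Fin a × Fin q) ⊕ Fin H, 2 ≤ Sum.elim s p x ∧ Sum.elim s p x ≤ a := by
    have hs : ∀ j, 2 ≤ s j ∧ s j ≤ a := fun j =>
      ⟨by have := s1 j; omega, by have := s2 j (l j); have := s3 (l j); omega⟩
    rintro (j | h)
    · exact hs j
    · exact ⟨by have := s2 j0 h; have := (hs j0).1; simp only [Sum.elim_inr]; omega, s3 h⟩
  have hfil : ((Finset.univ.val.map (Sum.elim s p)).filter (0 < ·)) =
      Finset.univ.val.map (Sum.elim s p) := by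
    refine Multiset.filter_eq_self.2 fun x hx => ?_
    obtain ⟨y, _, rfl⟩ := Multiset.mem_map.1 hx
    exact lt_of_lt_of_le (by norm_num) (hpos y).1
  rw [hfil]
  refine le_trans ?_ (hLow a b (k + 1) lam hsum)
  refine Finset.single_le_sum (f := fun κ => nn (k + 1) (tl lam) κ) (fun _ _ => Nat.zero_le _)
    (Finset.mem_filter.2 ⟨mem_PT ?_ ?_, ?_, ?_⟩)
  · rw [← s5]
    change ∑ x, Sum.elim s p x = _
    rw [Fintype.sum_sum_type]
    rfl
  · intro x hx
    obtain ⟨y, _, rfl⟩ := Multiset.mem_map.1 hx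
    exact (hpos y).1
  · intro x hx
    obtain ⟨y, _, rfl⟩ := Multiset.mem_map.1 hx
    exact (hpos y).2
  · rw [Multiset.card_map]
    change 3 * Finset.card Finset.univ ≤ b
    rw [Finset.card_univ, Fintype.card_sum, Fintype.card_prod, Fintype.card_fin, Fintype.card_fin,
      Fintype.card_fin]
    exact s4

end Vale.Agent.P181.TL.H307
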